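import Vale.Agent.P040.Sph40.Defs

/-!
# A crossing lemma for four points of the sphere
-/

namespace Vale.Agent.P040.Sph40

/-- `x, x'` on the same side of the great circle `b b'` and `b, b'` on the same side of the great circle
`x x'` -/
def Good4 (b b' x x' : V3) : Prop :=
  0 < det3 b b' x * det3 b b' x' ∧ 0 < det3 x x' b * det3 x x' b'

lemma eq_zero_of_nsq (y : V3) (h : nsq y = 0) : y = 0 := by
  unfold nsq at h
  have h1 : y.1 ^ 2 = 0 := by nlinarith [sq_nonneg y.1, sq_nonneg y.2.1, sq_nonneg y.2.2]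
  have h2 : y.2.1 ^ 2 = 0 := by nlinarith [sq_nonneg y.1, sq_nonneg y.2.1, sq_nonneg y.2.2]
  have h3 : y.2.2 ^ 2 = 0 := by nlinarith [sq_nonneg y.1, sq_nonneg y.2.1, sq_nonneg y.2.2]
  have e1 : y.1 = 0 := by simpa using h1
  have e2 : y.2.1 = 0 := by simpa using h2
  have e3 : y.2.2 = 0 := by simpa using h3
  ext <;> simp [e1, e2, e3]

lemma nsq_nonneg (y : V3) : 0 ≤ nsq y := by
  unfold nsq; positivity

lemma nsq_smul (c : ℝ) (y : V3) : nsq (c • y) = c ^ 2 * nsq y := by
  unfold nsq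
  simp only [Prod.smul_fst, Prod.smul_snd, smul_eq_mul]
  ring

/-- a nonzero vector of two cones gives a common point of the two arcs -/
lemma meet_of_dep (p q r s : V3) (α β γ δ : ℝ) (hα : 0 < α) (hβ : 0 < β) (hγ : 0 < γ)
    (hδ : 0 < δ) (h : α • p + β • q = γ • r + δ • s) (hne : α • p + β • q ≠ 0) :
    (arc p q ∩ arc r s).Nonempty := by
  set y := α • p + β • q with hy
  have hN : 0 < nsq y := lt_of_le_of_ne (nsq_nonneg y) (fun h0 => hne (eq_zero_of_nsq y h0.symm))
  set c := 1 / Real.sqrt (nsq y) with hc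
  have hs : 0 < Real.sqrt (nsq y) := Real.sqrt_pos.mpr hN
  have hcpos : 0 < c := by positivity
  have hunit : nsq (c • y) = 1 := by
    rw [nsq_smul, hc, div_pow, Real.sq_sqrt hN.le]
    field_simp
  refine ⟨c • y, ⟨hunit, c * α, c * β, by positivity, by positivity, ?_⟩,
    ⟨hunit, c * γ, c * δ, by positivity, by positivity, ?_⟩⟩
  · rw [hy, smul_add, smul_smul, smul_smul]
  · rw [h, smul_add, smul_smul, smul_smul]

lemma det3_comb (b b' x : V3) (α β : ℝ) :
    det3 b b' (α • b + β • x) = β * det3 b b' x := by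
  unfold det3
  simp only [Prod.fst_add, Prod.snd_add, Prod.smul_fst, Prod.smul_snd, smul_eq_mul]
  ring

lemma det3_zero (b b' : V3) : det3 b b' 0 = 0 := by
  unfold det3; simp

lemma comb_ne_zero (b b' x : V3) (α β : ℝ) (hβ : β ≠ 0) (h : det3 b b' x ≠ 0) :
    α • b + β • x ≠ 0 := by
  intro h0
  have := det3_comb b b' x α β
  rw [h0, det3_zero] at this
  exact (mul_ne_zero hβ h) this.symm

/-- If `x, x'` lie strictly on the same side of the great circle `b b'` and `b, b'` strictly on the same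
side of the great circle `x x'`, then the arcs `b x`, `b' x'` meet or the arcs `b x'`, `b' x` meet. -/
theorem cross_of_good4 (b b' x x' : V3) (h : Good4 b b' x x') :
    (arc b x ∩ arc b' x').Nonempty ∨ (arc b x' ∩ arc b' x).Nonempty := by
  obtain ⟨h1, h2⟩ := h
  set o1 := det3 b b' x with ho1
  set o2 := det3 b b' x' with ho2
  set o3 := det3 x x' b with ho3
  set o4 := det3 x x' b' with ho4
  have hx : o4 * b.1 - o3 * b'.1 + o2 * x.1 - o1 * x'.1 = 0 := by
    simp only [ho1, ho2, ho3, ho4, det3]; ring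
  have hy : o4 * b.2.1 - o3 * b'.2.1 + o2 * x.2.1 - o1 * x'.2.1 = 0 := by
    simp only [ho1, ho2, ho3, ho4, det3]; ring
  have hz : o4 * b.2.2 - o3 * b'.2.2 + o2 * x.2.2 - o1 * x'.2.2 = 0 := by
    simp only [ho1, ho2, ho3, ho4, det3]; ring
  rcases (mul_pos_iff.mp h1) with ⟨p1, p2⟩ | ⟨p1, p2⟩ <;>
  rcases (mul_pos_iff.mp h2) with ⟨p3, p4⟩ | ⟨p3, p4⟩
  · left
    refine meet_of_dep b x b' x' o4 o2 o3 o1 p4 p2 p3 p1 ?_
      (comb_ne_zero b b' x o4 o2 p2.ne' p1.ne')
    ext
    · simp only [Prod.fst_add, Prod.smul_fst, smul_eq_mul]; linarith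
    · simp only [Prod.fst_add, Prod.snd_add, Prod.smul_fst, Prod.smul_snd, smul_eq_mul]; linarith
    · simp only [Prod.snd_add, Prod.smul_snd, smul_eq_mul]; linarith
  · right
    refine meet_of_dep b x' b' x (-o4) o1 (-o3) o2 (by linarith) p1 (by linarith) p2 ?_
      (comb_ne_zero b b' x' (-o4) o1 p1.ne' p2.ne')
    ext
    · simp only [Prod.fst_add, Prod.smul_fst, smul_eq_mul]; linarith
    · simp only [Prod.fst_add, Prod.snd_add, Prod.smul_fst, Prod.smul_snd, smul_eq_mul]; linarith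
    · simp only [Prod.snd_add, Prod.smul_snd, smul_eq_mul]; linarith
  · right
    refine meet_of_dep b x' b' x o4 (-o1) o3 (-o2) p4 (by linarith) p3 (by linarith) ?_
      (comb_ne_zero b b' x' o4 (-o1) (by linarith [p1] : -o1 ≠ 0 ) p2.ne)
    ext
    · simp only [Prod.fst_add, Prod.smul_fst, smul_eq_mul]; linarith
    · simp only [Prod.fst_add, Prod.snd_add, Prod.smul_fst, Prod.smul_snd, smul_eq_mul]; linarith
    · simp only [Prod.snd_add, Prod.smul_snd, smul_eq_mul]; linarith
  · left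
    refine meet_of_dep b x b' x' (-o4) (-o2) (-o3) (-o1) (by linarith) (by linarith) (by linarith)
      (by linarith) ?_ (comb_ne_zero b b' x (-o4) (-o2) (neg_ne_zero.mpr p2.ne) p1.ne)
    ext
    · simp only [Prod.fst_add, Prod.smul_fst, smul_eq_mul]; linarith
    · simp only [Prod.fst_add, Prod.snd_add, Prod.smul_fst, Prod.smul_snd, smul_eq_mul]; linarith
    · simp only [Prod.snd_add, Prod.smul_snd, smul_eq_mul]; linarith

end Vale.Agent.P040.Sph40
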