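import Vale.Agent.P040.Sph40.Defs

/-!
# A generic reference vector
-/

namespace Vale.Agent.P040.Sph40

open Polynomial in
lemma finite_quad (a b c : ℝ) (h : ¬ (a = 0 ∧ b = 0 ∧ c = 0)) :
    {t : ℝ | a + b * t + c * t ^ 2 = 0}.Finite := by
  set p : ℝ[X] := C a + C b * X + C c * X ^ 2 with hp
  have hev : ∀ t, p.eval t = a + b * t + c * t ^ 2 := by
    intro t; simp [hp]
  have hp0 : p ≠ 0 := by
    intro h0
    apply h
    have e0 := hev 0
    have e1 := hev 1
    have e2 := hev (-1)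
    rw [h0] at e0 e1 e2
    simp only [eval_zero] at e0 e1 e2
    refine ⟨by linarith, by linarith, by linarith⟩
  apply Set.Finite.subset p.roots.toFinset.finite_toSet
  intro t ht
  simp only [Finset.mem_coe, Multiset.mem_toFinset]
  rw [mem_roots hp0, IsRoot, hev]
  exact ht

/-- a vector `e` with `det3 (u a) e (v a) ≠ 0` for finitely many pairs of independent vectors -/
lemma exists_ref {ι : Type*} [Finite ι] (u v : ι → V3) (h : ∀ a, ∃ w, det3 (u a) w (v a) ≠ 0) :
    ∃ e : V3, ∀ a, det3 (u a) e (v a) ≠ 0 := by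
  -- `det3 u (1, t, t^2) v = A + B t + C t^2`
  have key : ∀ (x y : V3) (w : V3), det3 x w y =
      (x.2.2 * y.2.1 - x.2.1 * y.2.2) * w.1 + (x.1 * y.2.2 - x.2.2 * y.1) * w.2.1
        + (x.2.1 * y.1 - x.1 * y.2.1) * w.2.2 := by
    intro x y w; unfold det3; ring
  have hfin : ∀ a, {t : ℝ | det3 (u a) (1, t, t ^ 2) (v a) = 0}.Finite := by
    intro a
    obtain ⟨w, hw⟩ := h a
    have := finite_quad ((u a).2.2 * (v a).2.1 - (u a).2.1 * (v a).2.2)
      ((u a).1 * (v a).2.2 - (u a).2.2 * (v a).1) ((u a).2.1 * (v a).1 - (u a).1 * (v a).2.1) (by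
        rintro ⟨e1, e2, e3⟩
        apply hw
        rw [key, e1, e2, e3]; ring)
    refine this.subset ?_
    intro t ht
    simp only [Set.mem_ofPred_eq] at ht ⊢
    rw [key] at ht
    simp only at ht
    linarith
  have hU : (⋃ a, {t : ℝ | det3 (u a) (1, t, t ^ 2) (v a) = 0}).Finite := Set.finite_iUnion hfin
  obtain ⟨t, ht⟩ := hU.exists_notMem
  refine ⟨(1, t, t ^ 2), fun a h0 => ht ?_⟩
  exact Set.mem_iUnion.mpr ⟨a, h0⟩

end Vale.Agent.P040.Sph40
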