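import Vale.Agent.P040.Sph40.Count
import Vale.Agent.P040.Sph40.Radon3
import Vale.Agent.P040.Sph40.Ref
import Vale.Agent.P040.Sph56.Defs
import Vale.Agent.P040.Rect.Defs

/-!
# Spherical geodesic drawings: reduction of the Zarankiewicz bound to the pair inequality and to the
labelling lemma
-/

namespace Vale.Agent.P040.Sph40

open Finset Vale.Agent.P040.All

open Classical in
/-- number of good pairs of reds -/
noncomputable def good4Count (k : ℕ) (r : ℕ → V3) (b b' : V3) : ℕ :=
  (((range (2 * k + 1)) ×ˢ (range (2 * k + 1))).filter fun q =>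
    q.1 < q.2 ∧ Sph56.Good4 b b' (r q.1) (r q.2)).card

/-- interface: the pair inequality -/
def PairIneqS (k : ℕ) : Prop :=
  ∀ (r nn : ℕ → V3) (e b b' : V3), Sph56.Lab k r nn → Sph56.BlueS k r e b → Sph56.BlueS k r e b' →
    Sph56.PairS k r e b b' →
    ((II k).filter fun f => Sph56.PhiS k r nn e f b = Sph56.PhiS k r nn e f b').card ≤
      good4Count k r b b'

/-- the labelled reds -/
noncomputable def lab {k : ℕ} (v : Fin (2 * k + 1) → V3) (σ : Fin (2 * k + 1) ≃ Fin (2 * k + 1))
    (i : ℕ) : V3 := if h : i < 2 * k + 1 then v (σ ⟨i, h⟩) else 0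

/-- interface: the reds `v` admit a labelling -/
def HasLab (k : ℕ) (v : Fin (2 * k + 1) → V3) : Prop :=
  ∃ (σ : Fin (2 * k + 1) ≃ Fin (2 * k + 1)) (nn : ℕ → V3), Sph56.Lab k (lab v σ) nn

variable {n : ℕ}

lemma arc_symm (p q : V3) : arc p q = arc q p := by
  ext z
  constructor
  · rintro ⟨h, a, b, ha, hb, rfl⟩
    exact ⟨h, b, a, hb, ha, add_comm _ _⟩
  · rintro ⟨h, a, b, ha, hb, rfl⟩
    exact ⟨h, b, a, hb, ha, add_comm _ _⟩

lemma good4Count_le_pc (k : ℕ) (D : SphDrawing (2 * k + 1) n)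
    (σ : Fin (2 * k + 1) ≃ Fin (2 * k + 1)) (j j' : Fin n) :
    good4Count k (lab D.red σ) (D.blue j) (D.blue j') ≤ D.pc j j' := by
  classical
  unfold good4Count SphDrawing.pc
  set s : ℕ → Fin (2 * k + 1) := fun x => σ (Fin.ofNat (2 * k + 1) x) with hs
  have hlab : ∀ x < 2 * k + 1, lab D.red σ x = D.red (s x) := by
    intro x hx
    unfold lab
    rw [dif_pos hx]
    congr 2
    apply Fin.ext
    simp only [Fin.val_ofNat]
    rw [Nat.mod_eq_of_lt hx]
  have hsinj : ∀ x < 2 * k + 1, ∀ y < 2 * k + 1, s x = s y → x = y := by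
    intro x hx y hy h
    have h1 : Fin.ofNat (2 * k + 1) x = Fin.ofNat (2 * k + 1) y := σ.injective h
    have h2 := congrArg Fin.val h1
    simp only [Fin.val_ofNat] at h2
    rwa [Nat.mod_eq_of_lt hx, Nat.mod_eq_of_lt hy] at h2
  apply card_le_card_of_injOn
    (fun q => if D.Cross (s q.1, j) (s q.2, j') then (s q.1, s q.2) else (s q.2, s q.1))
  · intro q hq
    simp only [coe_filter, mem_product, mem_range, Set.mem_ofPred_eq] at hq
    obtain ⟨⟨hq1, hq2⟩, hlt, hgood⟩ := hq
    rw [hlab _ hq1, hlab _ hq2] at hgood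
    have hne : s q.1 ≠ s q.2 := fun h => (ne_of_lt hlt) (hsinj _ hq1 _ hq2 h)
    have hcr := cross_of_good4 _ _ _ _ (show Good4 _ _ _ _ from hgood)
    simp only [coe_filter, mem_univ, true_and, Set.mem_ofPred_eq]
    by_cases hc : D.Cross (s q.1, j) (s q.2, j')
    · rw [if_pos hc]
      exact ⟨hne, hc⟩
    · rw [if_neg hc]
      refine ⟨hne.symm, ?_⟩
      rcases hcr with h | h
      · exfalso
        apply hc
        unfold SphDrawing.Cross
        rw [arc_symm (D.red _) (D.blue j), arc_symm (D.red _) (D.blue j')]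
        exact h
      · unfold SphDrawing.Cross
        rw [arc_symm (D.red _) (D.blue j), arc_symm (D.red _) (D.blue j')]
        exact h
  · intro q hq q' hq' h
    simp only [coe_filter, mem_product, mem_range, Set.mem_ofPred_eq] at hq hq'
    obtain ⟨⟨hq1, hq2⟩, hlt, -⟩ := hq
    obtain ⟨⟨hq1', hq2'⟩, hlt', -⟩ := hq'
    simp only at h
    split_ifs at h with h1 h2 h2
    · simp only [Prod.mk.injEq] at h
      exact Prod.ext (hsinj _ hq1 _ hq1' h.1) (hsinj _ hq2 _ hq2' h.2)
    · simp only [Prod.mk.injEq] at h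
      have e1 := hsinj _ hq1 _ hq2' h.1
      have e2 := hsinj _ hq2 _ hq1' h.2
      omega
    · simp only [Prod.mk.injEq] at h
      have e1 := hsinj _ hq2 _ hq1' h.1
      have e2 := hsinj _ hq1 _ hq2' h.2
      omega
    · simp only [Prod.mk.injEq] at h
      exact Prod.ext (hsinj _ hq1 _ hq1' h.2) (hsinj _ hq2 _ hq2' h.1)

/-- The pair inequality and a labelling of the reds give the Zarankiewicz bound for a spherical geodesic
drawing of `K_{2k+1,n}`. -/
theorem sph_odd_of (k : ℕ) (hP : PairIneqS k) (n : ℕ) (D : SphDrawing (2 * k + 1) n)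
    (hL : HasLab k D.red) :
    k * k * ((n / 2) * ((n - 1) / 2)) ≤ D.crossings := by
  classical
  by_cases hk : k = 0
  · subst hk; simp
  obtain ⟨σ, nn, hLab⟩ := hL
  have hcyc : ∀ a b c : V3, det3 a b c = det3 b c a := fun a b c => by unfold det3; ring
  have hswap : ∀ a b c : V3, det3 a b c = - det3 b a c := fun a b c => by unfold det3; ring
  -- the reference vector
  obtain ⟨e, he⟩ := exists_ref
    (ι := (Fin n × Fin (2 * k + 1)) ⊕ {p : Fin n × Fin n // p.1 ≠ p.2})
    (fun a => Sum.elim (fun q => D.blue q.1) (fun p => D.blue p.1.1) a)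
    (fun a => Sum.elim (fun q => D.red q.2) (fun p => D.blue p.1.2) a) (by
      rintro (⟨j, i⟩ | ⟨⟨j, j'⟩, hjj⟩)
      · obtain ⟨i', hi'⟩ : ∃ i' : Fin (2 * k + 1), i' ≠ i := by
          by_cases h0 : i.val = 0
          · exact ⟨⟨1, by omega⟩, fun h1 => by rw [← h1] at h0; simp at h0⟩
          · exact ⟨⟨0, by omega⟩, fun h1 => by rw [← h1] at h0; simp at h0⟩
        refine ⟨D.red i', ?_⟩
        simp only [Sum.elim_inl]
        rw [hcyc]
        exact D.gen_rrb i' i j hi'
      · refine ⟨D.red ⟨0, by omega⟩, ?_⟩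
        simp only [Sum.elim_inr]
        rw [hswap]
        exact neg_ne_zero.mpr (D.gen_rbb _ j j' hjj))
  have he1 : ∀ (j : Fin n) (i : Fin (2 * k + 1)), det3 (D.blue j) e (D.red i) ≠ 0 :=
    fun j i => he (Sum.inl (j, i))
  have he2 : ∀ j j' : Fin n, j ≠ j' → det3 (D.blue j) e (D.blue j') ≠ 0 :=
    fun j j' h => he (Sum.inr ⟨(j, j'), h⟩)
  set r := lab D.red σ with hr
  have hlab : ∀ x (hx : x < 2 * k + 1), r x = D.red (σ ⟨x, hx⟩) := by
    intro x hx
    rw [hr]; unfold lab
    rw [dif_pos hx]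
  have hblue : ∀ j : Fin n, Sph56.BlueS k r e (D.blue j) := by
    intro j
    refine ⟨?_, ?_⟩
    · intro i hi i' hi' hne
      rw [hlab i hi, hlab i' hi']
      exact D.gen_rrb _ _ j (fun h => hne (by simpa using σ.injective h))
    · intro i hi
      rw [hlab i hi]
      exact he1 j _
  have hpairS : ∀ j j' : Fin n, j ≠ j' → Sph56.PairS k r e (D.blue j) (D.blue j') := by
    intro j j' hne
    refine ⟨?_, he2 j j' hne⟩
    intro i hi
    rw [hlab i hi]
    have := D.gen_rbb (σ ⟨i, hi⟩) j j' hne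
    rw [hcyc] at this
    exact this
  have hpair : ∀ j j' : Fin n, j < j' →
      ((II k).filter fun f => Sph56.PhiS k r nn e f (D.blue j) =
        Sph56.PhiS k r nn e f (D.blue j')).card ≤ D.pc j j' := by
    intro j j' hlt
    exact (hP r nn e _ _ hLab (hblue j) (hblue j') (hpairS j j' (ne_of_lt hlt))).trans
      (good4Count_le_pc k D σ j j')
  have := Rect.feat_count (II k) (fun f j => Sph56.PhiS k r nn e f (D.blue j)) D.pc hpair
  rw [card_II] at this
  exact this.trans (sum_pc_le D)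

end Vale.Agent.P040.Sph40
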