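import Mathlib

/-!
# Spherical geodesic drawings of `K_{m,n}`: definitions
-/

namespace Vale.Agent.P040.Sph40

/-- vectors of `ℝ³` -/
abbrev V3 : Type := ℝ × ℝ × ℝ

/-- the square of the Euclidean length -/
def nsq (a : V3) : ℝ := a.1 ^ 2 + a.2.1 ^ 2 + a.2.2 ^ 2

/-- the determinant of three vectors -/
def det3 (a b c : V3) : ℝ :=
  a.1 * (b.2.1 * c.2.2 - b.2.2 * c.2.1) - a.2.1 * (b.1 * c.2.2 - b.2.2 * c.1)
    + a.2.2 * (b.1 * c.2.1 - b.2.1 * c.1)

/-- The shortest great-circle arc joining the points `p`, `q` of the unit sphere (`q ≠ -p`): the unit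
vectors in the convex cone spanned by `p` and `q`. -/
def arc (p q : V3) : Set V3 := {z | nsq z = 1 ∧ ∃ a b : ℝ, 0 ≤ a ∧ 0 ≤ b ∧ z = a • p + b • q}

/-- A spherical geodesic drawing of `K_{m,n}`: the vertices are points of the unit sphere of `ℝ³`,
every edge is the shortest great-circle arc joining a red to a blue vertex.  General position: no
great circle contains three vertices that are not all blue (three points of the sphere lie on a great
circle iff their determinant vanishes). -/
structure SphDrawing (m n : ℕ) where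
  /-- the red vertices -/
  red : Fin m → V3
  /-- the blue vertices -/
  blue : Fin n → V3
  red_unit : ∀ i, nsq (red i) = 1
  blue_unit : ∀ j, nsq (blue j) = 1
  gen_rrr : ∀ i i' i'', i ≠ i' → i ≠ i'' → i' ≠ i'' → det3 (red i) (red i') (red i'') ≠ 0
  gen_rrb : ∀ i i' j, i ≠ i' → det3 (red i) (red i') (blue j) ≠ 0
  gen_rbb : ∀ i j j', j ≠ j' → det3 (red i) (blue j) (blue j') ≠ 0

/-- the edges `e`, `f` (geodesic arcs) meet -/
def SphDrawing.Cross {m n : ℕ} (D : SphDrawing m n) (e f : Fin m × Fin n) : Prop :=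
  (arc (D.red e.1) (D.blue e.2) ∩ arc (D.red f.1) (D.blue f.2)).Nonempty

/-- The number of crossings: the number of unordered pairs of edges without common end that meet
(every such pair is listed once, with the smaller blue end first). -/
noncomputable def SphDrawing.crossings {m n : ℕ} (D : SphDrawing m n) : ℕ :=
  {p : (Fin m × Fin n) × (Fin m × Fin n) | p.1.2 < p.2.2 ∧ p.1.1 ≠ p.2.1 ∧ D.Cross p.1 p.2}.ncard

end Vale.Agent.P040.Sph40
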