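import Vale.Agent.P040.Sph40.HemiAll
import Vale.Agent.P040.Sph56.Pair

/-!
# Spherical geodesic drawings: the pair inequality holds; the hemisphere theorem
-/

namespace Vale.Agent.P040.Sph40

open Finset

open Vale.Agent.P040.Sph56 (dot)

/-- the pair inequality -/
theorem pairIneqS (k : ℕ) : PairIneqS k := by
  intro r nn e b b' hL hb hb' hp
  unfold good4Count
  exact Sph56.pair_ineq hL hb hb' hp

/-- The Zarankiewicz bound for all spherical geodesic drawings whose red vertices lie in an open
hemisphere. -/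
theorem sph_hemi (m n : ℕ) (D : SphDrawing m n) (u : V3) (hu : ∀ i, 0 < dot u (D.red i)) :
    (m / 2) * ((m - 1) / 2) * ((n / 2) * ((n - 1) / 2)) ≤ D.crossings :=
  sph_hemi_of pairIneqS m n D u hu

/-- The labelling lemma gives the Zarankiewicz bound for all spherical geodesic drawings. -/
theorem sph_all_of_lab
    (hL : ∀ (k : ℕ) (v : Fin (2 * k + 1) → V3),
      (∀ i j l, i ≠ j → i ≠ l → j ≠ l → det3 (v i) (v j) (v l) ≠ 0) → HasLab k v)
    (m n : ℕ) (D : SphDrawing m n) :
    (m / 2) * ((m - 1) / 2) * ((n / 2) * ((n - 1) / 2)) ≤ D.crossings :=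
  sph_all_of pairIneqS hL m n D

end Vale.Agent.P040.Sph40
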