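import Vale.Agent.P040.Sph40.Main

/-!
# The labelling lemma when the reds lie in an open hemisphere

The great circles through a generic point `w` of the boundary of the hemisphere order the reds linearly.
-/

namespace Vale.Agent.P040.Sph40

open Finset

open Vale.Agent.P040.Sph56 (dot crs)

lemma det3_crs_eq (u e a b : V3) :
    det3 (crs u e) a b = dot u a * dot e b - dot u b * dot e a := by
  unfold det3 crs dot; ring

lemma det3_ref_eq (u e a b : V3) : det3 u e (crs a b) = det3 (crs u e) a b := by
  unfold det3 crs; ring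

lemma dot_crs_left (w a b : V3) : dot (crs w a) b = det3 w a b := by
  unfold det3 crs dot; ring

lemma dot_crs_right (w a b : V3) : dot (crs a w) b = - det3 w a b := by
  unfold det3 crs dot; ring

lemma exists_third {k : ℕ} (i j : Fin (2 * k + 1)) (hij : i ≠ j) :
    ∃ l : Fin (2 * k + 1), i ≠ l ∧ j ≠ l := by
  have hi := i.2
  have hj := j.2
  have hne : i.val ≠ j.val := fun h => hij (Fin.ext h)
  have hk : 3 ≤ 2 * k + 1 := by omega
  by_cases h0 : i.val ≠ 0 ∧ j.val ≠ 0
  · exact ⟨⟨0, by omega⟩, fun h => h0.1 (by rw [h]), fun h => h0.2 (by rw [h])⟩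
  by_cases h1 : i.val ≠ 1 ∧ j.val ≠ 1
  · exact ⟨⟨1, by omega⟩, fun h => h1.1 (by rw [h]), fun h => h1.2 (by rw [h])⟩
  refine ⟨⟨2, by omega⟩, fun h => ?_, fun h => ?_⟩
  · have : i.val = 2 := by rw [h]
    omega
  · have : j.val = 2 := by rw [h]
    omega

/-- a generic point of the boundary circle of the hemisphere -/
lemma exists_pole {k : ℕ} (v : Fin (2 * k + 1) → V3)
    (hgen : ∀ i j l, i ≠ j → i ≠ l → j ≠ l → det3 (v i) (v j) (v l) ≠ 0)
    (u : V3) (hu : ∀ i, 0 < dot u (v i)) :
    ∃ e : V3, ∀ i j, i ≠ j → det3 (crs u e) (v i) (v j) ≠ 0 := by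
  obtain ⟨e, he⟩ := exists_ref (ι := {p : Fin (2 * k + 1) × Fin (2 * k + 1) // p.1 ≠ p.2})
    (fun _ => u) (fun p => crs (v p.1.1) (v p.1.2)) (by
      rintro ⟨⟨i, j⟩, hij⟩
      simp only at hij ⊢
      obtain ⟨l, hil, hjl⟩ := exists_third i j hij
      by_contra hc
      push Not at hc
      have h1 := hc (1, 0, 0)
      have h2 := hc (0, 1, 0)
      have h3 := hc (0, 0, 1)
      have hg := hgen i j l hij hil hjl
      have hui := hu i
      apply hg
      have : det3 (v i) (v j) (v l) * dot u (v i) = 0 := by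
        unfold det3 crs at h1 h2 h3
        simp only [mul_zero, zero_mul, one_mul, sub_zero, zero_sub, add_zero] at h1 h2 h3
        unfold det3 dot
        linear_combination ((v l).2.1 * (v i).2.2 - (v l).2.2 * (v i).2.1) * h1
          + ((v l).2.2 * (v i).1 - (v l).1 * (v i).2.2) * h2
          + ((v l).1 * (v i).2.1 - (v l).2.1 * (v i).1) * h3
      rcases mul_eq_zero.mp this with h | h
      · exact h
      · exact absurd h hui.ne')
  refine ⟨e, fun i j hij => ?_⟩
  rw [← det3_ref_eq]
  exact he ⟨(i, j), hij⟩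

/-- **Labelling lemma, hemisphere case.** -/
theorem hasLab_of_hemi (k : ℕ) (v : Fin (2 * k + 1) → V3)
    (hgen : ∀ i j l, i ≠ j → i ≠ l → j ≠ l → det3 (v i) (v j) (v l) ≠ 0)
    (u : V3) (hu : ∀ i, 0 < dot u (v i)) : HasLab k v := by
  classical
  obtain ⟨e, he⟩ := exists_pole v hgen u hu
  set x : Fin (2 * k + 1) → ℝ := fun i => dot e (v i) / dot u (v i) with hx
  have hsign : ∀ i j, (0 < det3 (crs u e) (v i) (v j) ↔ x i < x j) := by
    intro i j
    rw [det3_crs_eq, hx]
    simp only
    rw [div_lt_div_iff₀ (hu i) (hu j)]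
    constructor <;> intro h <;> nlinarith
  have hinj : Function.Injective x := by
    intro i j hij
    by_contra hne
    apply he i j hne
    rw [det3_crs_eq]
    have h1 : dot e (v i) / dot u (v i) = dot e (v j) / dot u (v j) := hij
    rw [div_eq_div_iff (hu i).ne' (hu j).ne'] at h1
    linarith
  set σ : Equiv.Perm (Fin (2 * k + 1)) := Tuple.sort x with hσ
  have hmono : StrictMono (x ∘ σ) :=
    (Tuple.monotone_sort x).strictMono_of_injective (hinj.comp σ.injective)
  set w := crs u e with hw
  set r := lab v σ with hr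
  have hlab : ∀ i (hi : i < 2 * k + 1), r i = v (σ ⟨i, hi⟩) := by
    intro i hi
    rw [hr]; unfold lab
    rw [dif_pos hi]
  have hpos : ∀ i < 2 * k + 1, ∀ j < 2 * k + 1, (0 < det3 w (r i) (r j) ↔ i < j) := by
    intro i hi j hj
    rw [hlab i hi, hlab j hj, hsign]
    exact hmono.lt_iff_lt (a := ⟨i, hi⟩) (b := ⟨j, hj⟩)
  have hanti : ∀ a b : V3, det3 w a b = - det3 w b a := fun a b => by unfold det3; ring
  refine ⟨σ, fun i => if i ≤ k then crs (r i) w else crs w (r i), ?_⟩
  refine ⟨?_, ?_, ?_, ?_, ?_⟩
  · intro i _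
    split_ifs
    · rw [dot_crs_right]; unfold det3; ring
    · rw [dot_crs_left]; unfold det3; ring
  · intro i hi j hj hij
    have h1 : det3 w (r i) (r j) ≠ 0 := by
      rcases lt_or_gt_of_ne hij with h | h
      · exact ((hpos i hi j hj).mpr h).ne'
      · have := (hpos j hj i hi).mpr h
        rw [hanti]
        exact (neg_neg_of_pos this).ne
    split_ifs
    · rw [dot_crs_right]; exact neg_ne_zero.mpr h1
    · rw [dot_crs_left]; exact h1
  · intro i hi j hj
    rw [if_pos hi, dot_crs_right, ← hanti]
    exact (hpos j (by omega) i (by omega)).mpr hj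
  · intro i hi hi2 j hj hj2
    rw [if_neg (by omega), dot_crs_left]
    exact (hpos i hi2 j hj2).mpr hj
  · intro i hi
    split_ifs with hik
    · calc ((range (2 * k + 1)).filter fun j => 0 < dot (crs (r i) w) (r j)).card
          ≤ (range i).card := by
            apply card_le_card
            intro j hj
            simp only [mem_filter, mem_range] at hj ⊢
            rw [dot_crs_right, ← hanti] at hj
            exact (hpos j hj.1 i hi).mp hj.2
        _ = i := card_range i
        _ ≤ k := hik
    · calc ((range (2 * k + 1)).filter fun j => 0 < dot (crs w (r i)) (r j)).card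
          ≤ (Ioo i (2 * k + 1)).card := by
            apply card_le_card
            intro j hj
            simp only [mem_filter, mem_range, mem_Ioo] at hj ⊢
            rw [dot_crs_left] at hj
            exact ⟨(hpos i hi j hj.1).mp hj.2, hj.1⟩
        _ = 2 * k + 1 - i - 1 := Nat.card_Ioo _ _
        _ ≤ k := by omega

end Vale.Agent.P040.Sph40
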