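import Vale.Agent.P040.Sph40.Hemi

/-!
# Spherical geodesic drawings whose red vertices lie in an open hemisphere: reduction to the pair
inequality
-/

namespace Vale.Agent.P040.Sph40

open Finset

open Vale.Agent.P040.Sph56 (dot)

variable {n : ℕ}

/-- From odd `m` to all `m`, for a class of drawings closed under the deletion of a red vertex. -/
theorem all_of_odd_class (P : ∀ m : ℕ, SphDrawing m n → Prop)
    (hdel : ∀ (m : ℕ) (D : SphDrawing (m + 1) n) (a : Fin (m + 1)), P _ D → P _ (D.del a))
    (h : ∀ (k : ℕ) (D : SphDrawing (2 * k + 1) n), P _ D →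
      k * k * ((n / 2) * ((n - 1) / 2)) ≤ D.crossings)
    (m : ℕ) (D : SphDrawing m n) (hD : P _ D) :
    (m / 2) * ((m - 1) / 2) * ((n / 2) * ((n - 1) / 2)) ≤ D.crossings := by
  obtain ⟨k, hk | hk⟩ := Nat.even_or_odd' m
  · rcases Nat.eq_zero_or_pos k with h0 | h0
    · subst hk; subst h0; simp
    · obtain ⟨j, rfl⟩ : ∃ j, k = j + 1 := ⟨k - 1, by omega⟩
      have hm : m = (2 * j + 1) + 1 := by omega
      subst hm
      have e1 : (2 * j + 1 + 1) / 2 = j + 1 := by omega
      have e2 : (2 * j + 1 + 1 - 1) / 2 = j := by omega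
      rw [e1, e2]
      set Z := (n / 2) * ((n - 1) / 2) with hZ
      have hb : (2 * j + 1 + 1) * (j * j * Z) ≤ (2 * j + 1 - 1) * D.crossings := by
        calc (2 * j + 1 + 1) * (j * j * Z) = ∑ _a : Fin (2 * j + 1 + 1), j * j * Z := by simp
          _ ≤ ∑ a : Fin (2 * j + 1 + 1), (D.del a).crossings :=
              Finset.sum_le_sum fun a _ => h j _ (hdel _ D a hD)
          _ ≤ _ := sum_del_le D
      have e3 : 2 * j + 1 - 1 = 2 * j := by omega
      rw [e3] at hb
      rcases Nat.eq_zero_or_pos j with hj | hj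
      · subst hj; simp
      · have hb' : (2 * j) * ((j + 1) * j * Z) ≤ (2 * j) * D.crossings := by
          calc (2 * j) * ((j + 1) * j * Z) = (2 * j + 1 + 1) * (j * j * Z) := by ring
            _ ≤ _ := hb
        exact Nat.le_of_mul_le_mul_left hb' (by omega)
  · subst hk
    have e1 : (2 * k + 1) / 2 = k := by omega
    have e2 : (2 * k + 1 - 1) / 2 = k := by omega
    rw [e1, e2]
    exact h k D hD

/-- The pair inequality gives the Zarankiewicz bound for all spherical geodesic drawings whose red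
vertices lie in an open hemisphere (the blue vertices are arbitrary). -/
theorem sph_hemi_of (hP : ∀ k, PairIneqS k) (m n : ℕ) (D : SphDrawing m n) (u : V3)
    (hu : ∀ i, 0 < dot u (D.red i)) :
    (m / 2) * ((m - 1) / 2) * ((n / 2) * ((n - 1) / 2)) ≤ D.crossings := by
  refine all_of_odd_class (fun _ D => ∀ i, 0 < dot u (D.red i)) ?_ ?_ m D hu
  · intro m D a hD i
    exact hD _
  · intro k D hD
    exact sph_odd_of k (hP k) n D (hasLab_of_hemi k D.red D.gen_rrr u hD)

/-- The pair inequality and the labelling lemma give the Zarankiewicz bound for all spherical geodesic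
drawings. -/
theorem sph_all_of (hP : ∀ k, PairIneqS k)
    (hL : ∀ (k : ℕ) (v : Fin (2 * k + 1) → V3),
      (∀ i j l, i ≠ j → i ≠ l → j ≠ l → det3 (v i) (v j) (v l) ≠ 0) → HasLab k v)
    (m n : ℕ) (D : SphDrawing m n) :
    (m / 2) * ((m - 1) / 2) * ((n / 2) * ((n - 1) / 2)) ≤ D.crossings :=
  all_of_odd (fun k n D => sph_odd_of k (hP k) n D (hL k D.red D.gen_rrr)) m n D

end Vale.Agent.P040.Sph40
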